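import Vale.Agent.P038.Dense.Count
import Vale.Agent.P038.Dense.Lex

open Vale.Agent.P038.Dense

theorem Vale.Agent.Results.P038.NearTournament.result :
    (∀ (V : Type) [Fintype V] [Nonempty V] (A : V → V → Prop), Oriented A →
        (∀ v, Fintype.card V ≤ 2 * (first A v).ncard + 2) → ∃ v, Good A v) ∧
    (∀ (V : Type) [Fintype V] [Nonempty V] (A : V → V → Prop), Oriented A →
        ∀ d : ℕ, (∀ v, (first A v).ncard = d) → (∀ v, {u | A u v}.ncard = d) →
          Fintype.card V ≤ 2 * d + 4 → ∃ v, Good A v) ∧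
    (∀ ε : ℝ, 0 < ε → (DenseConjecture ε ↔ Conjecture)) :=
  ⟨fun _ _ _ _ hA h => near_tournament hA h,
    fun _ _ _ _ hA d ho hi hn => regular_near hA d ho hi hn,
    fun _ hε => ⟨dense_suffices hε, fun hc V _ _ A hA _ => hc V A hA⟩⟩
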